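import Vale.Agent.Lib.P226.Public

/-!
# P226: the Gaussian propeller conjecture
-/

open Vale.Agent.Propeller

/-- For every measurable partition of `ℝ^d` into `k` cells the sum of the squared norms of the
Gaussian first moments of the cells is at most `9 / (8 π)`, and for `d ≥ 2`, `k ≥ 3` this value is
attained. -/
theorem Vale.Agent.Results.P226.GaussianPropeller.result :
    (∀ (d k : ℕ) (A : Fin k → Set (EuclideanSpace ℝ (Fin d))), IsPartition A →
      energy A ≤ 9 / (8 * Real.pi)) ∧
    (∀ d k : ℕ, 2 ≤ d → 3 ≤ k →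
      IsGreatest {y : ℝ | ∃ A : Fin k → Set (EuclideanSpace ℝ (Fin d)),
        IsPartition A ∧ energy A = y} (9 / (8 * Real.pi))) :=
  Vale.Agent.Lib.P226.propeller
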